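import Vale.Agent.Lib.P095H.DerivB
import Vale.Agent.Lib.P095H.Mean
import Vale.Agent.Lib.P095G.GWhole

/-!
# P095: Szabo's Conjecture A, second formulation

Every action of a countable discrete amenable group on a separable, simple, nuclear, `Z`-stable
C*-algebra is equivariantly `Z`-stable, where `Z` is the Jiang-Su algebra and `A ⊗ Z` is the spatial
tensor product, i.e. the closed span of the operators `π(a) ⊗ σ(z)` for faithful representations
`π`, `σ` on Hilbert spaces.
-/

open scoped TensorProduct MultiplierAlgebra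

namespace Vale.Agent.Results.P095.ConjectureA

universe u v

theorem result {Z : Type u} [CStarAlgebra Z] (hZ : _root_.P095H.IsJiangSuAlgebra Z)
    {A : Type u} [NonUnitalCStarAlgebra A]
    [TopologicalSpace.SeparableSpace A] (hsimple : Vale.Agent.P095.IsSimpleCStar A)
    (hnuclear : _root_.P095H.IsNuclear A)
    {C : Type u} [NonUnitalCStarAlgebra C] (t : A → Z → C)
    (ht : Vale.Agent.P095.IsSpatialTensorProduct t) (hstable : Nonempty (A ≃⋆ₐ[ℂ] C))
    {G : Type v} [Group G] [Countable G] (hG : _root_.P095H.IsAmenable G)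
    (α : G →* (A ≃⋆ₐ[ℂ] A)) :
    Vale.Agent.P095.EquivariantlyStable t α := by
  obtain ⟨γ, hγ, hc⟩ := _root_.P095G.whole (_root_.P095H.folner_of_measure hG)
    (_root_.P095H.simple_of_simple hsimple) (_root_.P095H.nuclearN_of hnuclear)
    (_root_.P095H.jiangSu_of hZ) ht.laws.lin (_root_.P095H.completion_of_spatial ht) hstable α
  refine ⟨γ, fun g a z => ?_, _root_.P095H.conjugate_of hc⟩
  have h := hγ g a z
  rwa [ht.laws.lin_tmul, ht.laws.lin_tmul] at h

end Vale.Agent.Results.P095.ConjectureA
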