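import Mathlib
import Vale.Agent.Lib.P095K.Bridge

/-!
# P095: Szabo's Conjecture A, third formulation

Let `Z` be the Jiang-Su algebra, `A` a separable, simple, nuclear C*-algebra (unital or not),
`m : A ⊗ Z → B` the minimal tensor product, and suppose `A ≅ B` (`A` is `Z`-stable).  Let `G` be a
countable amenable group and `α` any action of `G` on `A`.  Then the action `β = α ⊗ id_Z` exists,
and `α` is cocycle conjugate to it.

Of the Jiang-Su algebra only the description in the problem file is used.  In particular the
approximately inner (half) flip is not assumed: it is deduced from strong self-absorption.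
-/

open scoped TensorProduct

namespace Vale.Agent.Results.P095.SzaboConjecture

universe u v

theorem result {Z : Type u} [CStarAlgebra Z] (hZ : _root_.P095K.IsJiangSuAlgebra Z)
    {A : Type u} [NonUnitalCStarAlgebra A]
    [TopologicalSpace.SeparableSpace A] (hsimple : _root_.Vale.Agent.P095.IsSimpleCStar A)
    (hnuclear : _root_.P095H.IsNuclear A)
    {B : Type u} [NonUnitalCStarAlgebra B] (m : A ⊗[ℂ] Z →ₗ[ℂ] B)
    (hm : _root_.P095K.IsMinimalTensorProduct m) (hstable : Nonempty (A ≃⋆ₐ[ℂ] B))
    {G : Type v} [Group G] [Countable G] (hG : _root_.P095H.IsAmenable G)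
    (α : G →* (A ≃⋆ₐ[ℂ] A)) :
    ∃ β : G →* (B ≃⋆ₐ[ℂ] B),
      (∀ (g : G) (a : A) (z : Z), β g (m (a ⊗ₜ[ℂ] z)) = m (α g a ⊗ₜ[ℂ] z)) ∧
      _root_.P095K.AreCocycleConjugate α β :=
  _root_.P095K.main hZ hsimple hnuclear m hm hstable hG α

end Vale.Agent.Results.P095.SzaboConjecture
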