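import Mathlib
import Vale.Agent.Lib.P095F.LFinalB

/-!
# P095: Conjecture A of Szabo for unital algebras

Let `Z` be the Jiang-Su algebra (given by the properties listed in `P095E.IsJiangSu`, all of them
proved by Jiang and Su), `A` a unital separable simple nuclear C*-algebra and `m : A ⊗ Z → B` a
C*-completion of the algebraic tensor product with `A ≅ B` (so `A` is `Z`-stable).  Let `G` be a
countable amenable group and `α` any action of `G` on `A`.  Then the action `γ = α ⊗ id_Z` on `B`
exists and `α` is cocycle conjugate to it.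
-/

open scoped Topology TensorProduct

namespace Vale.Agent.Results.P095.UnitalAmenable

universe u v

theorem result {G : Type v} [Group G] [Countable G] (hG : _root_.P095F.AmenableGroup G)
    {A Z B : Type u} [CStarAlgebra A] [CStarAlgebra Z] [CStarAlgebra B]
    [TopologicalSpace.SeparableSpace A] [Nontrivial A] [IsSimpleRing A]
    (hA : _root_.P095F.NuclearCPAP A) (hZ : _root_.P095E.IsJiangSu Z)
    (m : A ⊗[ℂ] Z →⋆ₐ[ℂ] B) (hm : Function.Injective m) (hd : DenseRange m)
    (hAB : Nonempty (A ≃⋆ₐ[ℂ] B)) (α : G →* (A ≃⋆ₐ[ℂ] A)) :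
    ∃ γ : G →* (B ≃⋆ₐ[ℂ] B),
      _root_.P095E.IsTensorAction m α γ ∧ _root_.P095E.CocycleConjugate α γ :=
  _root_.P095F.final hA hG hZ m hm hd hAB α

end Vale.Agent.Results.P095.UnitalAmenable
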