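import Mathlib
import Vale.Agent.Lib.P095G.GWhole

/-!
# P095: Conjecture A of Szabo, in full

Let `Z` be the Jiang-Su algebra (given by the properties listed in `P095E.IsJiangSu`, all of them
proved by Jiang and Su), `A` a separable simple nuclear C*-algebra, unital or not, and
`m : A ⊗ Z → B` a C*-completion of the algebraic tensor product with `A ≅ B` (so `A` is
`Z`-stable).  Let `G` be a countable amenable group and `α` any action of `G` on `A`.  Then the
action `γ = α ⊗ id_Z` on `B` exists and `α` is cocycle conjugate to it (with a cocycle in the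
unitary group of the multiplier algebra of `B`).
-/

open scoped Topology TensorProduct

namespace Vale.Agent.Results.P095.WholeConjecture

universe u v

theorem result {G : Type v} [Group G] [Countable G] (hG : _root_.P095F.AmenableGroup G)
    {A Z B : Type u} [NonUnitalCStarAlgebra A] [CStarAlgebra Z] [NonUnitalCStarAlgebra B]
    [TopologicalSpace.SeparableSpace A] (hA : _root_.P095G.SimpleCStar A)
    (hnuc : _root_.P095G.NuclearN A) (hZ : _root_.P095E.IsJiangSu Z)
    (m : A ⊗[ℂ] Z →ₗ[ℂ] B) (hm : _root_.P095G.IsTensorCompletion m)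
    (hAB : Nonempty (A ≃⋆ₐ[ℂ] B)) (α : G →* (A ≃⋆ₐ[ℂ] A)) :
    ∃ γ : G →* (B ≃⋆ₐ[ℂ] B),
      _root_.P095G.IsTensorActionN m α γ ∧ _root_.P095G.CocycleConjugateM α γ :=
  _root_.P095G.whole hG hA hnuc hZ m hm hAB α

end Vale.Agent.Results.P095.WholeConjecture
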